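import Vale.Agent.P243.Defs
import Vale.Agent.P243.Main

/-!
Cylinder coverings of convex bodies in space: total relative base area exceeds one third uniformly.
-/

open MeasureTheory Set Vale.Agent.P243

namespace Vale.Agent.Results.P243.AboveOneThird

theorem result :
    ∀ (m : ℕ) (K : Set Space), IsCompact K → Convex ℝ K → (interior K).Nonempty →
      ∀ (u : Fin m → Space) (B : ∀ i, Set (perp (u i))),
        (∀ i, ‖u i‖ = 1) → (∀ i, FinitePlaneArea (u i) (B i)) →
        (K ⊆ ⋃ i, axisCylinder (u i) (B i)) →
        (1/3 + 1/10^37 ≤ ∑ i, planeArea (u i) (B i) / projArea K (u i)) ∧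
          ∀ a : ℝ, (∀ v : Space, ‖v‖ = 1 → a ≤ projArea K v) →
            (1/3 + 1/10^37) * a ≤ ∑ i, planeArea (u i) (B i) := by
  intro m K hK hKc hKi u B hu hBf hcov
  have hcov' : K ⊆ ⋃ i, {x | (ℝ ∙ u i)ᗮ.orthogonalProjectionOnto x ∈ toMeasurable volume (B i)} :=
    hcov.trans (iUnion_mono fun i x hx => subset_toMeasurable _ _ hx)
  have hBf' : ∀ i, volume (toMeasurable volume (B i)) ≠ ⊤ := fun i => by
    rw [measure_toMeasurable]; exact hBf i
  have hB' : ∀ i, MeasurableSet (toMeasurable volume (B i)) := fun i => measurableSet_toMeasurable _ _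
  have e : ∀ i, volume.real (toMeasurable volume (B i)) = volume.real (B i) := fun i => by
    simp only [Measure.real, measure_toMeasurable]
  refine ⟨?_, fun a ha => ?_⟩
  · have := cylinder_covering_bound K hK hKc hKi u hu _ hB' hBf' hcov'
    simp only [e] at this
    exact this
  · have := cylinder_covering_bound_min K hK hKc hKi u hu _ hB' hBf' hcov' a ha
    simp only [e] at this
    exact this

end Vale.Agent.Results.P243.AboveOneThird
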