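import Vale.Agent.P243.Defs
import Vale.Agent.P243b.Coplanar

/-!
Cylinder coverings with all axes parallel to one plane satisfy the half-area bound.
-/

open MeasureTheory Set Vale.Agent.P243

namespace Vale.Agent.Results.P243.CoplanarAxes

theorem result :
    ∀ (m : ℕ) (K : Set Space), IsCompact K → Convex ℝ K → (interior K).Nonempty →
      ∀ (u : Fin m → Space) (B : ∀ i, Set (perp (u i))) (n : Space),
        ‖n‖ = 1 → (∀ i, ‖u i‖ = 1) → (∀ i, inner ℝ (u i) n = (0:ℝ)) →
        (∀ i, FinitePlaneArea (u i) (B i)) →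
        (K ⊆ ⋃ i, axisCylinder (u i) (B i)) →
        (∃ x : Space, ‖x‖ = 1 ∧ inner ℝ x n = (0:ℝ) ∧
          projArea K x / 2 ≤ ∑ i, planeArea (u i) (B i)) ∧
          ∀ a : ℝ, (∀ x : Space, ‖x‖ = 1 → a ≤ projArea K x) →
            a / 2 ≤ ∑ i, planeArea (u i) (B i) := by
  intro m K hK hKv hKi u B n hn hu hun hBf hcov
  obtain ⟨x, hx, hxn, h⟩ :=
    Vale.Agent.P243b.coplanar_bound n hK hKv (hKi.mono interior_subset) hn u hu hun B hcov
  have hfin : ∑ i, (volume : Measure (perp (u i))) (B i) ≠ ⊤ :=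
    ENNReal.sum_ne_top.2 fun i _ => hBf i
  have hb : projArea K x / 2 ≤ ∑ i, planeArea (u i) (B i) := by
    have h' := ENNReal.toReal_mono (ENNReal.mul_ne_top ENNReal.ofNat_ne_top hfin) h
    rw [ENNReal.toReal_mul, ENNReal.toReal_sum fun i _ => hBf i] at h'
    simp only [ENNReal.toReal_ofNat] at h'
    change (volume : Measure (perp x)).real ((perp x).orthogonalProjectionOnto '' K) / 2
      ≤ ∑ i, (volume : Measure (perp (u i))).real (B i)
    simp only [Measure.real]
    linarith
  exact ⟨⟨x, hx, hxn, hb⟩, fun a ha => by linarith [ha x hx]⟩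

end Vale.Agent.Results.P243.CoplanarAxes
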