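import Vale.Agent.P243.Direction.Prism
import Vale.Agent.P243.TwoMain

/-!
A covering of a tetrahedron by four cylinders, each parallel to one of the facets, with relative
base areas summing to less than one half.
-/

open MeasureTheory Set

namespace Vale.Agent.Results.P243.DirectionwiseBelowHalf

open Vale.Agent.P243 Vale.Agent.P243.Direction

/-- The tetrahedron spanned by the origin and the coordinate unit points. -/
def simplex : Set Space := {x | 0 ≤ x 0 ∧ 0 ≤ x 1 ∧ 0 ≤ x 2 ∧ x 0 + x 1 + x 2 ≤ 1}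

lemma simplex_compact : IsCompact simplex := by
  refine Metric.isCompact_of_isClosed_isBounded ?_ ?_
  · have hc : ∀ i : Fin 3, Continuous fun x : Space => x i := fun i => PiLp.continuous_apply 2 _ i
    exact (isClosed_le continuous_const (hc 0)).inter ((isClosed_le continuous_const (hc 1)).inter
      ((isClosed_le continuous_const (hc 2)).inter
        (isClosed_le (((hc 0).add (hc 1)).add (hc 2)) continuous_const)))
  · refine (Metric.isBounded_iff_subset_closedBall (0 : Space)).2 ⟨2, fun x hx => ?_⟩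
    obtain ⟨h0, h1, h2, h3⟩ := hx
    rw [mem_closedBall_zero_iff, EuclideanSpace.norm_eq, Real.sqrt_le_iff]
    refine ⟨by norm_num, ?_⟩
    simp only [Fin.sum_univ_three, Real.norm_eq_abs, sq_abs]
    nlinarith

lemma simplex_convex : Convex ℝ simplex := by
  intro x hx y hy s t hs ht hst
  obtain ⟨a0, a1, a2, a3⟩ := hx
  obtain ⟨b0, b1, b2, b3⟩ := hy
  have := mul_nonneg hs a0; have := mul_nonneg hs a1; have := mul_nonneg hs a2
  have := mul_nonneg ht b0; have := mul_nonneg ht b1; have := mul_nonneg ht b2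
  have := mul_le_mul_of_nonneg_left a3 hs; have := mul_le_mul_of_nonneg_left b3 ht
  refine ⟨?_, ?_, ?_, ?_⟩ <;> simp <;> linarith

lemma simplex_interior : (interior simplex).Nonempty := by
  have hc : ∀ i : Fin 3, Continuous fun x : Space => x i := fun i => PiLp.continuous_apply 2 _ i
  refine ⟨!₂[1/4, 1/4, 1/4], mem_interior.2
    ⟨{x | 0 < x 0 ∧ 0 < x 1 ∧ 0 < x 2 ∧ x 0 + x 1 + x 2 < 1}, ?_, ?_, ?_⟩⟩
  · exact fun x hx => ⟨hx.1.le, hx.2.1.le, hx.2.2.1.le, hx.2.2.2.le⟩
  · exact (isOpen_lt continuous_const (hc 0)).inter ((isOpen_lt continuous_const (hc 1)).inter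
      ((isOpen_lt continuous_const (hc 2)).inter
        (isOpen_lt (((hc 0).add (hc 1)).add (hc 2)) continuous_const)))
  · simp; norm_num


/-- The coordinates across the direction of cylinder 0. -/
noncomputable def coord0 : Space →ₗ[ℝ] (Fin 2 → ℝ) where
  toFun x := ![(359 / 1000 : ℝ) * x 1 + x 2, x 0]
  map_add' x y := by funext i; fin_cases i <;> simp <;> ring
  map_smul' c x := by funext i; fin_cases i <;> simp <;> ring

lemma cyl0 : ∃ u : Space, ‖u‖ = 1 ∧ ∃ B : Set (perp u), MeasurableSet B ∧ FinitePlaneArea u B ∧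
    0 < projArea simplex u ∧
    planeArea u B / projArea simplex u = 54992 / 1000000 ∧
    {x | coord0 x + ![0, 0] ∈ tri (191 / 1000 : ℝ) (682 / 1000 : ℝ) (196 / 1000 : ℝ) (112 / 1000 : ℝ)} ⊆
      axisCylinder u B := by
  have h := prism !₂[0, 1, -(359 / 1000 : ℝ)] ?_ simplex coord0 ![0, 0] ?_ ?_ ?_ ?_
    (L := (191 / 1000 : ℝ)) (R := (682 / 1000 : ℝ)) (A := (196 / 1000 : ℝ)) (h := (112 / 1000 : ℝ)) (by norm_num) (by norm_num)
  · obtain ⟨u, hu, B, hB, hBf, hp, he, hs⟩ := h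
    exact ⟨u, hu, B, hB, hBf, hp, by rw [he]; norm_num, hs⟩
  · intro h0
    have e0 := congrArg (fun x : Space => x 0) h0
    have e1 := congrArg (fun x : Space => x 1) h0
    have e2 := congrArg (fun x : Space => x 2) h0
    simp at e0 e1 e2
  · funext i; fin_cases i <;> simp [coord0] <;> norm_num
  · intro x hx
    have e0 := congrFun hx 0
    have e1 := congrFun hx 1
    simp [coord0] at e0 e1
    refine ⟨x 1, ?_⟩
    ext i; fin_cases i <;> simp <;> linarith
  · intro x hx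
    obtain ⟨h0, h1, h2, h3⟩ := hx
    refine ⟨?_, ?_, ?_⟩ <;> simp [coord0] <;> linarith
  · intro p hp
    obtain ⟨h0, h1, h2⟩ := hp
    refine ⟨!₂[p 1, 0, p 0], ⟨?_, ?_, ?_, ?_⟩, ?_⟩
    · simp <;> linarith
    · simp <;> linarith
    · simp <;> linarith
    · simp <;> linarith
    · funext i; fin_cases i <;> simp [coord0] <;> ring

/-- The coordinates across the direction of cylinder 1. -/
noncomputable def coord1 : Space →ₗ[ℝ] (Fin 2 → ℝ) where
  toFun x := ![(839 / 1000 : ℝ) * x 2 + x 1, -x 0 - x 1 - x 2]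
  map_add' x y := by funext i; fin_cases i <;> simp <;> ring
  map_smul' c x := by funext i; fin_cases i <;> simp <;> ring

lemma cyl1 : ∃ u : Space, ‖u‖ = 1 ∧ ∃ B : Set (perp u), MeasurableSet B ∧ FinitePlaneArea u B ∧
    0 < projArea simplex u ∧
    planeArea u B / projArea simplex u = 224130 / 1000000 ∧
    {x | coord1 x + ![0, 1] ∈ tri (437 / 1000 : ℝ) (919 / 1000 : ℝ) (412 / 1000 : ℝ) (465 / 1000 : ℝ)} ⊆
      axisCylinder u B := by
  have h := prism !₂[(839 / 1000 : ℝ)-1, -(839 / 1000 : ℝ), 1] ?_ simplex coord1 ![0, 1] ?_ ?_ ?_ ?_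
    (L := (437 / 1000 : ℝ)) (R := (919 / 1000 : ℝ)) (A := (412 / 1000 : ℝ)) (h := (465 / 1000 : ℝ)) (by norm_num) (by norm_num)
  · obtain ⟨u, hu, B, hB, hBf, hp, he, hs⟩ := h
    exact ⟨u, hu, B, hB, hBf, hp, by rw [he]; norm_num, hs⟩
  · intro h0
    have e0 := congrArg (fun x : Space => x 0) h0
    have e1 := congrArg (fun x : Space => x 1) h0
    have e2 := congrArg (fun x : Space => x 2) h0
    simp at e0 e1 e2
  · funext i; fin_cases i <;> simp [coord1] <;> norm_num
  · intro x hx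
    have e0 := congrFun hx 0
    have e1 := congrFun hx 1
    simp [coord1] at e0 e1
    refine ⟨x 2, ?_⟩
    ext i; fin_cases i <;> simp <;> linarith
  · intro x hx
    obtain ⟨h0, h1, h2, h3⟩ := hx
    refine ⟨?_, ?_, ?_⟩ <;> simp [coord1] <;> linarith
  · intro p hp
    obtain ⟨h0, h1, h2⟩ := hp
    refine ⟨!₂[1 - p 0 - p 1, p 0, 0], ⟨?_, ?_, ?_, ?_⟩, ?_⟩
    · simp <;> linarith
    · simp <;> linarith
    · simp <;> linarith
    · simp <;> linarith
    · funext i; fin_cases i <;> simp [coord1] <;> ring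

/-- The coordinates across the direction of cylinder 2. -/
noncomputable def coord2 : Space →ₗ[ℝ] (Fin 2 → ℝ) where
  toFun x := ![(240 / 1000 : ℝ) * x 0 + x 1, x 2]
  map_add' x y := by funext i; fin_cases i <;> simp <;> ring
  map_smul' c x := by funext i; fin_cases i <;> simp <;> ring

lemma cyl2 : ∃ u : Space, ‖u‖ = 1 ∧ ∃ B : Set (perp u), MeasurableSet B ∧ FinitePlaneArea u B ∧
    0 < projArea simplex u ∧
    planeArea u B / projArea simplex u = 46762 / 1000000 ∧
    {x | coord2 x + ![0, 0] ∈ tri (119 / 1000 : ℝ) (573 / 1000 : ℝ) (482 / 1000 : ℝ) (103 / 1000 : ℝ)} ⊆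
      axisCylinder u B := by
  have h := prism !₂[1, -(240 / 1000 : ℝ), 0] ?_ simplex coord2 ![0, 0] ?_ ?_ ?_ ?_
    (L := (119 / 1000 : ℝ)) (R := (573 / 1000 : ℝ)) (A := (482 / 1000 : ℝ)) (h := (103 / 1000 : ℝ)) (by norm_num) (by norm_num)
  · obtain ⟨u, hu, B, hB, hBf, hp, he, hs⟩ := h
    exact ⟨u, hu, B, hB, hBf, hp, by rw [he]; norm_num, hs⟩
  · intro h0
    have e0 := congrArg (fun x : Space => x 0) h0
    have e1 := congrArg (fun x : Space => x 1) h0
    have e2 := congrArg (fun x : Space => x 2) h0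
    simp at e0 e1 e2
  · funext i; fin_cases i <;> simp [coord2] <;> norm_num
  · intro x hx
    have e0 := congrFun hx 0
    have e1 := congrFun hx 1
    simp [coord2] at e0 e1
    refine ⟨x 0, ?_⟩
    ext i; fin_cases i <;> simp <;> linarith
  · intro x hx
    obtain ⟨h0, h1, h2, h3⟩ := hx
    refine ⟨?_, ?_, ?_⟩ <;> simp [coord2] <;> linarith
  · intro p hp
    obtain ⟨h0, h1, h2⟩ := hp
    refine ⟨!₂[0, p 0, p 1], ⟨?_, ?_, ?_, ?_⟩, ?_⟩
    · simp <;> linarith
    · simp <;> linarith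
    · simp <;> linarith
    · simp <;> linarith
    · funext i; fin_cases i <;> simp [coord2] <;> ring

/-- The coordinates across the direction of cylinder 3. -/
noncomputable def coord3 : Space →ₗ[ℝ] (Fin 2 → ℝ) where
  toFun x := ![-(64 / 1000 : ℝ) * x 0 + (-(64 / 1000 : ℝ)) * x 1 + (1 - (64 / 1000 : ℝ)) * x 2, x 1]
  map_add' x y := by funext i; fin_cases i <;> simp <;> ring
  map_smul' c x := by funext i; fin_cases i <;> simp <;> ring

lemma cyl3 : ∃ u : Space, ‖u‖ = 1 ∧ ∃ B : Set (perp u), MeasurableSet B ∧ FinitePlaneArea u B ∧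
    0 < projArea simplex u ∧
    planeArea u B / projArea simplex u = 171639 / 1000000 ∧
    {x | coord3 x + ![(64 / 1000 : ℝ), 0] ∈ tri (32 / 1000 : ℝ) (521 / 1000 : ℝ) (103 / 1000 : ℝ) (351 / 1000 : ℝ)} ⊆
      axisCylinder u B := by
  have h := prism !₂[(64 / 1000 : ℝ)-1, 0, -(64 / 1000 : ℝ)] ?_ simplex coord3 ![(64 / 1000 : ℝ), 0] ?_ ?_ ?_ ?_
    (L := (32 / 1000 : ℝ)) (R := (521 / 1000 : ℝ)) (A := (103 / 1000 : ℝ)) (h := (351 / 1000 : ℝ)) (by norm_num) (by norm_num)
  · obtain ⟨u, hu, B, hB, hBf, hp, he, hs⟩ := h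
    exact ⟨u, hu, B, hB, hBf, hp, by rw [he]; norm_num, hs⟩
  · intro h0
    have e0 := congrArg (fun x : Space => x 0) h0
    have e1 := congrArg (fun x : Space => x 1) h0
    have e2 := congrArg (fun x : Space => x 2) h0
    simp at e0 e1 e2
  · funext i; fin_cases i <;> simp [coord3] <;> norm_num
  · intro x hx
    have e0 := congrFun hx 0
    have e1 := congrFun hx 1
    simp [coord3] at e0 e1
    refine ⟨-x 2 / (64 / 1000 : ℝ), ?_⟩
    ext i; fin_cases i <;> simp <;> linarith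
  · intro x hx
    obtain ⟨h0, h1, h2, h3⟩ := hx
    refine ⟨?_, ?_, ?_⟩ <;> simp [coord3] <;> linarith
  · intro p hp
    obtain ⟨h0, h1, h2⟩ := hp
    refine ⟨!₂[1 - p 0 - p 1, p 1, p 0], ⟨?_, ?_, ?_, ?_⟩, ?_⟩
    · simp <;> linarith
    · simp <;> linarith
    · simp <;> linarith
    · simp <;> linarith
    · funext i; fin_cases i <;> simp [coord3] <;> ring

lemma covered {x : Space} (hx : x ∈ simplex) :
    coord0 x + ![0, 0] ∈ tri (191 / 1000 : ℝ) (682 / 1000 : ℝ) (196 / 1000 : ℝ) (112 / 1000 : ℝ) ∨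
    coord1 x + ![0, 1] ∈ tri (437 / 1000 : ℝ) (919 / 1000 : ℝ) (412 / 1000 : ℝ) (465 / 1000 : ℝ) ∨
    coord2 x + ![0, 0] ∈ tri (119 / 1000 : ℝ) (573 / 1000 : ℝ) (482 / 1000 : ℝ) (103 / 1000 : ℝ) ∨
    coord3 x + ![(64 / 1000 : ℝ), 0] ∈ tri (32 / 1000 : ℝ) (521 / 1000 : ℝ) (103 / 1000 : ℝ) (351 / 1000 : ℝ) := by
  obtain ⟨h0, h1, h2, h3⟩ := hx
  simp only [tri, mem_setOf_eq, coord0, coord1, coord2, coord3, LinearMap.coe_mk, AddHom.coe_mk,
    Pi.add_apply, Matrix.cons_val_zero, Matrix.cons_val_one]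
  by_contra hne
  simp only [not_or, not_and_or, not_le] at hne
  obtain ⟨c0, c1, c2, c3⟩ := hne
  rcases c0 with c0 | c0 | c0 <;> rcases c1 with c1 | c1 | c1 <;>
    rcases c2 with c2 | c2 | c2 <;> rcases c3 with c3 | c3 | c3 <;> linarith

/-- A tetrahedron is covered by four cylinders of total relative base area below one half, while
two axis directions never suffice for that. -/
theorem result : (∃ (K : Set Space) (u : Fin 4 → Space) (B : ∀ i, Set (perp (u i))),
    IsCompact K ∧ Convex ℝ K ∧ (interior K).Nonempty ∧ (∀ i, ‖u i‖ = 1) ∧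
    (∀ i, MeasurableSet (B i)) ∧ (∀ i, FinitePlaneArea (u i) (B i)) ∧
    (∀ i, 0 < projArea K (u i)) ∧ (K ⊆ ⋃ i, axisCylinder (u i) (B i)) ∧
    ∑ i, planeArea (u i) (B i) / projArea K (u i) = 497523 / 1000000 ∧
    (497523 / 1000000 : ℝ) < 1 / 2) ∧
    (∀ (m : ℕ) (K : Set Space), IsCompact K → Convex ℝ K → (interior K).Nonempty →
      ∀ (u : Fin m → Space) (B : ∀ i, Set (perp (u i))) (v w : Space),
        (∀ i, ‖u i‖ = 1) → (∀ i, u i ∈ ℝ ∙ v ∨ u i ∈ ℝ ∙ w) →
        (∀ i, FinitePlaneArea (u i) (B i)) →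
        (K ⊆ ⋃ i, axisCylinder (u i) (B i)) →
        1 / 2 ≤ ∑ i, planeArea (u i) (B i) / projArea K (u i)) := by
  refine ⟨?_, fun m K hK hKc hKi u B v w hu hdir hBf hcov =>
    two_directions_bound hK hKc hKi u B hu hdir hBf hcov⟩
  obtain ⟨u0, hu0, B0, hB0, hF0, hp0, he0, hs0⟩ := cyl0
  obtain ⟨u1, hu1, B1, hB1, hF1, hp1, he1, hs1⟩ := cyl1
  obtain ⟨u2, hu2, B2, hB2, hF2, hp2, he2, hs2⟩ := cyl2
  obtain ⟨u3, hu3, B3, hB3, hF3, hp3, he3, hs3⟩ := cyl3
  let u : Fin 4 → Space := ![u0, u1, u2, u3]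
  let B : ∀ i, Set (perp (u i)) :=
    Fin.cons B0 (Fin.cons B1 (Fin.cons B2 (Fin.cons B3 finZeroElim)))
  refine ⟨simplex, u, B, simplex_compact, simplex_convex, simplex_interior, ?_, ?_, ?_, ?_, ?_, ?_,
    by norm_num⟩
  · intro i; fin_cases i <;> assumption
  · intro i; fin_cases i <;> assumption
  · intro i; fin_cases i <;> assumption
  · intro i; fin_cases i <;> assumption
  · intro x hx
    rcases covered hx with h | h | h | h
    · exact mem_iUnion.2 ⟨0, hs0 h⟩
    · exact mem_iUnion.2 ⟨1, hs1 h⟩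
    · exact mem_iUnion.2 ⟨2, hs2 h⟩
    · exact mem_iUnion.2 ⟨3, hs3 h⟩
  · rw [Fin.sum_univ_four]
    show planeArea u0 B0 / projArea simplex u0 + planeArea u1 B1 / projArea simplex u1 +
      planeArea u2 B2 / projArea simplex u2 + planeArea u3 B3 / projArea simplex u3 = _
    rw [he0, he1, he2, he3]
    norm_num

end Vale.Agent.Results.P243.DirectionwiseBelowHalf
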