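import Vale.Agent.P243.Defs
import Vale.Agent.P243.Symmetric
import Vale.Agent.P243b.SymHalf

/-!
Cylinder coverings of centrally symmetric bodies: total base area more than half the least shadow,
and total relative base area at least five twelfths.
-/

open MeasureTheory Set Vale.Agent.P243

namespace Vale.Agent.Results.P243.SymmetricBodies

theorem result :
    ∀ (m : ℕ) (K : Set Space), IsCompact K → Convex ℝ K → (interior K).Nonempty →
      ∀ (c : Space), (∀ x ∈ K, (2 : ℝ) • c - x ∈ K) →
      ∀ (u : Fin m → Space) (B : ∀ i, Set (perp (u i))),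
        (∀ i, ‖u i‖ = 1) → (∀ i, FinitePlaneArea (u i) (B i)) →
        (K ⊆ ⋃ i, axisCylinder (u i) (B i)) →
        (5/12 ≤ ∑ i, planeArea (u i) (B i) / projArea K (u i)) ∧
          ∀ a : ℝ, (∀ v : Space, ‖v‖ = 1 → a ≤ projArea K v) →
            4 * Real.pi / 25 * a ≤ ∑ i, planeArea (u i) (B i) ∧
              a / 2 ≤ ∑ i, planeArea (u i) (B i) := by
  intro m K hK hKc hKi c hsym u B hu hBf hcov
  have hcov' : K ⊆ ⋃ i, {x | (ℝ ∙ u i)ᗮ.orthogonalProjectionOnto x ∈ toMeasurable volume (B i)} :=
    hcov.trans (iUnion_mono fun i x hx => subset_toMeasurable _ _ hx)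
  have h := symmetric_bound K hK hKc hKi c hsym u hu (fun i => toMeasurable volume (B i))
    (fun i => measurableSet_toMeasurable _ _)
    (fun i => by rw [measure_toMeasurable]; exact hBf i) hcov'
  have e : ∀ i, volume.real (toMeasurable volume (B i)) = volume.real (B i) := fun i => by
    simp only [Measure.real, measure_toMeasurable]
  simp only [e] at h
  change 5/12 ≤ ∑ i, planeArea (u i) (B i) / projArea K (u i) at h
  refine ⟨h, fun a ha => ?_⟩
  obtain ⟨v, hv, hb⟩ := Vale.Agent.P243b.symmetric_half hK hKc hKi c hsym u hu B hBf hcov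
  have h1 := (mul_le_mul_of_nonneg_left (ha v hv) (by positivity : 0 ≤ 4 * Real.pi / 25)).trans hb
  refine ⟨h1, ?_⟩
  rcases le_or_gt a 0 with h0 | h0
  · exact le_trans (by linarith) (Finset.sum_nonneg fun i _ => measureReal_nonneg)
  · have := mul_lt_mul_of_pos_right Real.pi_gt_d2 h0
    linarith

end Vale.Agent.Results.P243.SymmetricBodies
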